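import Crest.Agent.N334.AC.L.Close
import Crest.Agent.N334.AC.P.One
import Crest.Agent.N334.AC.CT

-- ▼ part N334/AC/M7/Y
section

/-! # S0520 (helper74): the Schur square `G ∘ G` under closing; one-step estimates -/

set_option autoImplicit false

open Finset Matrix Complex
open scoped Matrix.Norms.L2Operator

namespace Crest.Agent.N334.AC.M7

variable {ι : Type} [Fintype ι] [DecidableEq ι]

/-- column `y` of `G` on `O \ y` -/
noncomputable def gc (A : Matrix ι ι ℂ) (w : ι → ℂ) (O : Finset ι) (y : ι) : ι → ℂ :=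
  cut (O.erase y) fun a => Gm A w a y

/-- linear part -/
noncomputable def DGD (A : Matrix ι ι ℂ) (w : ι → ℂ) (O : Finset ι) (y : ι) : Matrix ι ι ℂ :=
  diagonal (gc A w O y) * cmp (Gm A w) O * diagonal (gc A w O y)

/-- martingale increment of the Schur square at the closing of `y` -/
noncomputable def Y7 (A : Matrix ι ι ℂ) (w : ι → ℂ) (O : Finset ι) (y : ι) (τ e : ℂ) :
    Matrix ι ι ℂ :=
  (-2 * τ) • DGD A w O y +
    (τ ^ 2 - e) • vecMulVec (fun a => gc A w O y a ^ 2) fun a => gc A w O y a ^ 2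

/-- Schur square -/
noncomputable abbrev RR (A : Matrix ι ι ℂ) (w : ι → ℂ) : Matrix ι ι ℂ :=
  Matrix.hadamard (Gm A w) (Gm A w)

variable {A : Matrix ι ι ℂ} {w : ι → ℂ} {O : Finset ι} {y : ι} {τ e : ℂ}

theorem RR_apply (a b : ι) : RR A w a b = Gm A w a b * Gm A w a b := rfl

theorem RR_symm (h : Adm A w) : (RR A w)ᵀ = RR A w := by
  ext a b; rw [transpose_apply, RR_apply, RR_apply, h.G_sym]

theorem gc_of_mem {a : ι} (ha : a ∈ O.erase y) : gc A w O y a = Gm A w a y := by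
  simp only [gc, cut, ha, if_true]

theorem gc_of_not {a : ι} (ha : a ∉ O.erase y) : gc A w O y a = 0 := by
  simp only [gc, cut, ha, if_false]

theorem norm_gc_le (a : ι) : ‖gc A w O y a‖ ≤ ‖Gm A w a y‖ := by
  by_cases ha : a ∈ O.erase y
  · rw [gc_of_mem ha]
  · rw [gc_of_not ha, norm_zero]; positivity

theorem DGD_apply (a b : ι) : DGD A w O y a b = gc A w O y a * Gm A w a b * gc A w O y b := by
  rw [DGD, mul_diagonal, diagonal_mul]
  by_cases ha : a ∈ O.erase y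
  · by_cases hb : b ∈ O.erase y
    · simp [cmp, mem_of_mem_erase ha, mem_of_mem_erase hb]
    · simp [gc_of_not hb]
  · simp [gc_of_not ha]

theorem Y7_apply (a b : ι) : Y7 A w O y τ e a b =
    -2 * τ * (gc A w O y a * Gm A w a b * gc A w O y b) +
      (τ ^ 2 - e) * (gc A w O y a ^ 2 * gc A w O y b ^ 2) := by
  simp [Y7, DGD_apply, vecMulVec_apply]

theorem Y7_symm (h : Adm A w) : (Y7 A w O y τ e)ᵀ = Y7 A w O y τ e := by
  ext a b
  rw [transpose_apply, Y7_apply, Y7_apply, h.G_sym b a]; ring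

theorem Y7_form_congr {u u' : ι → ℂ} (hu : ∀ x ∈ O.erase y, u x = u' x) :
    u ⬝ᵥ Y7 A w O y τ e *ᵥ u = u' ⬝ᵥ Y7 A w O y τ e *ᵥ u' := by
  simp only [dotProduct, mulVec, mul_sum]
  refine sum_congr rfl fun a _ => sum_congr rfl fun b _ => ?_
  by_cases ha : a ∈ O.erase y
  · by_cases hb : b ∈ O.erase y
    · rw [hu a ha, hu b hb]
    · simp [Y7_apply, gc_of_not hb]
  · simp [Y7_apply, gc_of_not ha]

theorem form_close (h : Adm A w) {v : ℝ} (hne : 1 + ((v : ℂ) - w y) * Gm A w y y ≠ 0) (e : ℂ)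
    {u : ι → ℂ} (hu : Supp u (O.erase y)) :
    u ⬝ᵥ RR A (cls1 w y v) *ᵥ u = u ⬝ᵥ RR A w *ᵥ u +
      u ⬝ᵥ Y7 A w O y (tau (Gm A w y y) (w y) v) e *ᵥ u + e * (∑ a, Gm A w a y ^ 2 * u a) ^ 2 := by
  rw [sq (∑ a, _), sum_mul_sum]
  simp only [dotProduct, mulVec, mul_sum, ← sum_add_distrib]
  refine sum_congr rfl fun a _ => sum_congr rfl fun b _ => ?_
  by_cases ha : a ∈ O.erase y
  · by_cases hb : b ∈ O.erase y
    · rw [RR_apply, RR_apply, h.close_G hne, Y7_apply, gc_of_mem ha, gc_of_mem hb,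
        h.G_sym y b]
      ring
    · simp [hu b hb]
  · simp [hu a ha]

/-- the Schur step -/
theorem schur_step (h : Adm A w) {a C : ℝ} (ha : 0 < a) (hC : ‖Gm A w y y‖ ≤ C)
    (he : ‖e‖ * (a + C ^ 2) ≤ 1) {u : ι → ℂ} (hu : u y = 0) :
    ∃ z : ℂ, a * nsq (Function.update u y z) -
      (Function.update u y z ⬝ᵥ RR A w *ᵥ Function.update u y z).re ≤
      a * nsq u - (u ⬝ᵥ RR A w *ᵥ u).re - (e * (∑ a, Gm A w a y ^ 2 * u a) ^ 2).re := by
  set s := ∑ a, Gm A w a y ^ 2 * u a with hs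
  set c := 1 / (a + C ^ 2) with hc
  have hc0 : 0 < c := by positivity
  have hc1 : c * (a + C ^ 2) = 1 := by rw [hc]; field_simp
  refine ⟨c * star s, ?_⟩
  set z : ℂ := c * star s with hz
  have e1 : Function.update u y z = u + Pi.single y z := by
    funext x
    by_cases hx : x = y
    · subst hx; simp [hu]
    · simp [hx]
  have e2 : nsq (Function.update u y z) = nsq u + ‖z‖ ^ 2 := by
    unfold nsq
    rw [← add_sum_erase _ _ (mem_univ y), ← add_sum_erase _ (fun i => ‖u i‖ ^ 2) (mem_univ y),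
      sum_congr rfl fun x hx => by rw [Function.update_of_ne (ne_of_mem_erase hx)]]
    simp [hu, add_comm]
  have e3 : Function.update u y z ⬝ᵥ RR A w *ᵥ Function.update u y z =
      u ⬝ᵥ RR A w *ᵥ u + 2 * (z * s) + z ^ 2 * Gm A w y y ^ 2 := by
    have h1 : u ⬝ᵥ RR A w *ᵥ Pi.single y z = z * s := by
      rw [hs, mul_sum, mulVec_single]
      exact sum_congr rfl fun x _ => by simp; ring
    have h2 : Pi.single y z ⬝ᵥ RR A w *ᵥ u = z * s := by
      rw [single_dotProduct, hs]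
      congr 1
      exact sum_congr rfl fun x _ => by
        change RR A w y x * _ = _
        rw [RR_apply, h.G_sym y x, sq]
    have h3 : Pi.single y z ⬝ᵥ RR A w *ᵥ Pi.single y z = z ^ 2 * Gm A w y y ^ 2 := by
      rw [single_dotProduct, mulVec_single]; simp; ring
    rw [e1, mulVec_add, add_dotProduct, dotProduct_add, dotProduct_add, h1, h2, h3]; ring
  have e4 : ‖z‖ = c * ‖s‖ := by
    rw [hz, norm_mul, norm_star, Complex.norm_real, Real.norm_of_nonneg hc0.le]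
  have e5 : (2 * (z * s)).re = 2 * (c * ‖s‖ ^ 2) := by
    have : z * s = ((c * ‖s‖ ^ 2 : ℝ) : ℂ) := by
      rw [hz, mul_assoc]; push_cast; congr 1; exact Complex.conj_mul' s
    rw [this]; simp only [mul_re, re_ofNat, ofReal_re, im_ofNat, ofReal_im]; ring
  have h6 : |(z ^ 2 * Gm A w y y ^ 2).re| ≤ (c * ‖s‖) ^ 2 * C ^ 2 := by
    refine (abs_re_le_norm _).trans ?_
    rw [norm_mul, norm_pow, norm_pow, e4]; gcongr
  have h7 : |(e * s ^ 2).re| ≤ c * ‖s‖ ^ 2 := by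
    refine (abs_re_le_norm _).trans ?_
    rw [norm_mul, norm_pow]
    gcongr
    rw [hc, le_div_iff₀ (by positivity)]; exact he
  rw [e2, e3, e4, add_re, add_re, e5]
  have h8 : a * (c * ‖s‖) ^ 2 + (c * ‖s‖) ^ 2 * C ^ 2 = c * ‖s‖ ^ 2 := by
    calc _ = c * (a + C ^ 2) * (c * ‖s‖ ^ 2) := by ring
      _ = _ := by rw [hc1, one_mul]
  have := (abs_le.1 h6).1
  have := (abs_le.1 h7).2
  linarith

omit [DecidableEq ι] in
/-- numerical radius of a complex symmetric matrix -/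
theorem form_le_of_re {R : Matrix ι ι ℂ} (hR : Rᵀ = R) {Q : Finset ι} {b : ℝ} (hb : 0 ≤ b)
    (h : ∀ u, Supp u Q → (u ⬝ᵥ R *ᵥ u).re ≤ b * nsq u) {x y : ι → ℂ} (hx : Supp x Q)
    (hy : Supp y Q) : ‖x ⬝ᵥ R *ᵥ y‖ ^ 2 ≤ b ^ 2 * (nsq x * nsq y) := by
  have hc : y ⬝ᵥ R *ᵥ x = x ⬝ᵥ R *ᵥ y := by
    rw [dotProduct_mulVec, ← mulVec_transpose, hR, dotProduct_comm]
  have key : ∀ p q : ℂ, 2 * (p * q * (x ⬝ᵥ R *ᵥ y)).re ≤
      b * (‖p‖ ^ 2 * nsq x + ‖q‖ ^ 2 * nsq y) := by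
    intro p q
    have h1 := h (p • x + q • y) fun a ha => by simp [hx a ha, hy a ha]
    have h2 := h (I • (p • x - q • y)) fun a ha => by simp [hx a ha, hy a ha]
    have e1 : (p • x + q • y) ⬝ᵥ R *ᵥ (p • x + q • y) +
        (I • (p • x - q • y)) ⬝ᵥ R *ᵥ (I • (p • x - q • y)) = 4 * (p * q * (x ⬝ᵥ R *ᵥ y)) := by
      simp only [mulVec_add, mulVec_sub, mulVec_smul, add_dotProduct, sub_dotProduct,
        dotProduct_add, dotProduct_sub, smul_dotProduct, dotProduct_smul, smul_eq_mul, hc]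
      linear_combination (p ^ 2 * (x ⬝ᵥ R *ᵥ x) - 2 * p * q * (x ⬝ᵥ R *ᵥ y) +
        q ^ 2 * (y ⬝ᵥ R *ᵥ y)) * I_mul_I
    have e2 : nsq (p • x + q • y) + nsq (I • (p • x - q • y)) =
        2 * (‖p‖ ^ 2 * nsq x + ‖q‖ ^ 2 * nsq y) := by
      rw [nsq_smul, norm_I, one_pow, one_mul, ← nsq_smul, ← nsq_smul]
      simp only [nsq, ← sum_add_distrib, mul_sum, Pi.add_apply, Pi.sub_apply]
      refine sum_congr rfl fun i _ => ?_
      have := parallelogram_law_with_norm ℂ ((p • x) i) ((q • y) i)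
      nlinarith
    have e3 := congrArg re e1
    rw [add_re] at e3
    simp only [mul_re (4 : ℂ), re_ofNat, im_ofNat, zero_mul, sub_zero] at e3
    nlinarith
  set t := x ⬝ᵥ R *ᵥ y
  have hX := nsq_nonneg x
  have hY := nsq_nonneg y
  rcases hY.eq_or_lt with h0 | h0
  · have : y = 0 := nsq_eq_zero h0.symm
    simp [t, this]
  have h1 := key ((b * nsq y : ℝ) : ℂ) (star t)
  have e : (((b * nsq y : ℝ) : ℂ) * star t * t).re = b * nsq y * ‖t‖ ^ 2 := by
    have : star t * t = ((‖t‖ ^ 2 : ℝ) : ℂ) := by push_cast; exact Complex.conj_mul' t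
    rw [mul_assoc, this, ← ofReal_mul, ofReal_re]
  rw [e, norm_star, Complex.norm_real, Real.norm_of_nonneg (by positivity)] at h1
  rcases hb.eq_or_lt with hb0 | hb0
  · have h2 := key 1 (star t)
    have e' : ((1 : ℂ) * star t * t).re = ‖t‖ ^ 2 := by
      have : star t * t = ((‖t‖ ^ 2 : ℝ) : ℂ) := by push_cast; exact Complex.conj_mul' t
      rw [one_mul, this, ofReal_re]
    rw [e', ← hb0] at h2
    rw [← hb0]; linarith
  · have : b * nsq y * ‖t‖ ^ 2 ≤ b * nsq y * (b ^ 2 * (nsq x * nsq y)) := by nlinarith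
    exact le_of_mul_le_mul_left this (by positivity)

/-- size data of the ports of `O` -/
structure Sz (A : Matrix ι ι ℂ) (w : ι → ℂ) (O : Finset ι) (g Ci : ℝ) : Prop where
  adm : Adm A w
  g0 : 0 < g
  C0 : 0 ≤ Ci
  gam_ge : ∀ x ∈ O, g ≤ gam w x
  im_le : ∀ x ∈ O, (Gm A w x x).im ≤ Ci

variable {g Ci : ℝ}

theorem Sz.row (h : Sz A w O g Ci) {a : ι} (ha : a ∈ O) {S : Finset ι} (hS : S ⊆ O) :
    ∑ b ∈ S, ‖Gm A w a b‖ ^ 2 ≤ Ci / g := by
  rw [le_div_iff₀ h.g0, sum_mul]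
  refine le_trans ?_ ((h.adm.ward_diag a).le.trans (h.im_le a ha))
  refine (sum_le_sum fun b hb => ?_).trans (sum_le_sum_of_subset_of_nonneg (subset_univ S)
    fun b _ _ => mul_nonneg (h.adm.diss b) (by positivity))
  rw [mul_comm]; gcongr; exact h.gam_ge b (hS hb)

theorem Sz.norm_Y7 (h : Sz A w O g Ci) {Cs ν τ1 : ℝ} (hCs : 0 ≤ Cs)
    (hs : ∀ a ∈ O.erase y, ‖Gm A w a y‖ ≤ Cs) (hν : ∑ b ∈ O.erase y, ‖Gm A w b y‖ ^ 4 ≤ ν)
    (hτ : ‖τ‖ ≤ τ1) (he : ‖e‖ ≤ τ1 ^ 2) :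
    ‖Y7 A w O y τ e‖ ≤ 2 * τ1 * Cs ^ 2 / g + 2 * τ1 ^ 2 * ν := by
  have hg := h.g0
  have hτ0 : 0 ≤ τ1 := (norm_nonneg _).trans hτ
  have hd : ‖diagonal (gc A w O y)‖ ≤ Cs := norm_diagonal_le hCs fun a => by
    by_cases ha : a ∈ O.erase y
    · rw [gc_of_mem ha]; exact hs a ha
    · rw [gc_of_not ha, norm_zero]; exact hCs
  have h1 : ‖DGD A w O y‖ ≤ Cs * (1 / g) * Cs :=
    (norm_mul_le _ _).trans (mul_le_mul ((norm_mul_le _ _).trans
      (mul_le_mul hd (h.adm.norm_cmp hg h.gam_ge) (norm_nonneg _) hCs)) hd (norm_nonneg _)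
      (by positivity))
  have hν0 : 0 ≤ ν := le_trans (by positivity) hν
  have hρ : nsq (fun a => gc A w O y a ^ 2) ≤ ν := by
    refine le_trans (le_of_eq ?_) hν
    rw [nsq, ← sum_subset (subset_univ (O.erase y)) fun a _ ha => by simp [gc_of_not ha]]
    exact sum_congr rfl fun a ha => by rw [gc_of_mem ha, norm_pow]; ring
  have h2 : ‖vecMulVec (fun a => gc A w O y a ^ 2) fun a => gc A w O y a ^ 2‖ ≤ ν := by
    refine abs_le_of_sq_le_sq' ((norm_sq_le_hs _).trans ?_) hν0 |>.2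
    simp only [vecMulVec_apply, norm_mul, mul_pow, ← mul_sum, ← sum_mul]
    rw [sq ν]
    exact mul_le_mul hρ hρ (nsq_nonneg _) hν0
  have h3 : ‖τ ^ 2 - e‖ ≤ 2 * τ1 ^ 2 := by
    refine (norm_sub_le _ _).trans ?_
    have : ‖τ ^ 2‖ ≤ τ1 ^ 2 := by rw [norm_pow]; gcongr
    linarith
  refine (norm_add_le _ _).trans (add_le_add ?_ ?_)
  · rw [norm_smul, norm_mul, norm_neg, Complex.norm_two]
    calc _ ≤ 2 * τ1 * (Cs * (1 / g) * Cs) := by gcongr
      _ = _ := by ring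
  · rw [norm_smul]; gcongr

theorem Sz.nsq_Y7 (h : Sz A w O g Ci) {ν τ1 ε : ℝ} (hε : 0 < ε)
    (hν : ∑ b ∈ O.erase y, ‖Gm A w b y‖ ^ 4 ≤ ν) (hy : y ∈ O) (hτ : ‖τ‖ ≤ τ1) (he : ‖e‖ ≤ τ1 ^ 2)
    (v : ι → ℂ) : nsq (Y7 A w O y τ e *ᵥ v) ≤
      (8 * τ1 ^ 2 * (ε / g ^ 2 + ν / ε * (Ci / g)) + 8 * τ1 ^ 4 * ν * (Ci / g)) *
        ∑ a, ‖gc A w O y a‖ ^ 2 * ‖v a‖ ^ 2 := by
  have hg := h.g0
  have hC := h.C0
  have hν0 : 0 ≤ ν := le_trans (by positivity) hν
  set x := diagonal (gc A w O y) *ᵥ v with hx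
  have hxn : ∑ a, ‖gc A w O y a‖ ^ 2 * ‖v a‖ ^ 2 = nsq x :=
    sum_congr rfl fun a _ => by rw [hx, mulVec_diagonal, norm_mul, mul_pow]
  have hx0 := nsq_nonneg x
  rw [hxn]
  have h1 : nsq (DGD A w O y *ᵥ v) ≤ (ε / g ^ 2 + ν / ε * (Ci / g)) * nsq x := by
    have e1 : nsq (DGD A w O y *ᵥ v) =
        ∑ b ∈ O.erase y, ‖Gm A w b y‖ ^ 2 * ‖(cmp (Gm A w) O *ᵥ x) b‖ ^ 2 := by
      rw [DGD, ← mulVec_mulVec, ← mulVec_mulVec, ← hx, nsq,
        ← sum_subset (subset_univ (O.erase y)) fun a _ ha => by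
          simp [mulVec_diagonal, gc_of_not ha]]
      exact sum_congr rfl fun b hb => by rw [mulVec_diagonal, gc_of_mem hb, norm_mul, mul_pow]
    have h2 := One.split (O.erase y) (fun b => Gm A w b y)
      (c := fun b => ‖(cmp (Gm A w) O *ᵥ x) b‖ ^ 2) (s1 := (1 / g) ^ 2 * nsq x)
      (si := Ci / g * nsq x) hε (fun _ _ => by positivity) (fun b hb => by
        refine (cs' (cmp (Gm A w) O b) x).trans ?_
        gcongr
        refine le_trans (le_of_eq ?_) (h.row (mem_of_mem_erase hb) subset_rfl)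
        rw [nsq, ← sum_subset (subset_univ O) fun a _ ha => by simp [cmp, ha]]
        exact sum_congr rfl fun a ha => by simp [cmp, ha, mem_of_mem_erase hb]) (by
        refine le_trans (sum_le_sum_of_subset_of_nonneg (subset_univ _) fun _ _ _ => by positivity)
          ((nsq_mulVec_le _ x).trans ?_)
        gcongr; exact h.adm.norm_cmp hg h.gam_ge)
    rw [e1]
    refine h2.trans ?_
    calc _ ≤ ε * ((1 / g) ^ 2 * nsq x) + ν / ε * (Ci / g * nsq x) := by gcongr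
      _ = _ := by ring
  have h2 : nsq ((vecMulVec (fun a => gc A w O y a ^ 2) fun a => gc A w O y a ^ 2) *ᵥ v) ≤
      ν * (Ci / g * nsq x) := by
    have e1 : (vecMulVec (fun a => gc A w O y a ^ 2) fun a => gc A w O y a ^ 2) *ᵥ v =
        (gc A w O y ⬝ᵥ x) • fun a => gc A w O y a ^ 2 := by
      funext a
      simp only [mulVec, dotProduct, vecMulVec_apply, Pi.smul_apply, smul_eq_mul, sum_mul]
      exact sum_congr rfl fun b _ => by
        change _ = _ * x b * _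
        rw [hx, mulVec_diagonal]; ring
    have hρ : nsq (fun a => gc A w O y a ^ 2) ≤ ν := by
      refine le_trans (le_of_eq ?_) hν
      rw [nsq, ← sum_subset (subset_univ (O.erase y)) fun a _ ha => by simp [gc_of_not ha]]
      exact sum_congr rfl fun a ha => by rw [gc_of_mem ha, norm_pow]; ring
    have hg1 : nsq (gc A w O y) ≤ Ci / g := by
      rw [gc, nsq_cut]
      simpa only [h.adm.G_sym y] using h.row hy (erase_subset y O)
    rw [e1, nsq_smul, mul_comm]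
    exact mul_le_mul hρ ((cs' _ _).trans (by gcongr)) (by positivity) hν0
  have h3 : ‖τ ^ 2 - e‖ ≤ 2 * τ1 ^ 2 := by
    refine (norm_sub_le _ _).trans ?_
    have : ‖τ ^ 2‖ ≤ τ1 ^ 2 := by rw [norm_pow]; gcongr
    linarith
  rw [Y7, add_mulVec, smul_mulVec, smul_mulVec]
  refine (nsq_add_le _ _).trans ?_
  rw [nsq_smul, nsq_smul, norm_mul, norm_neg, Complex.norm_two]
  have := nsq_nonneg (DGD A w O y *ᵥ v)
  have := nsq_nonneg ((vecMulVec (fun a => gc A w O y a ^ 2) fun a => gc A w O y a ^ 2) *ᵥ v)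
  calc _ ≤ 2 * ((2 * τ1) ^ 2 * ((ε / g ^ 2 + ν / ε * (Ci / g)) * nsq x)) +
        2 * ((2 * τ1 ^ 2) ^ 2 * (ν * (Ci / g * nsq x))) := by gcongr
    _ = _ := by ring

theorem Sz.sum_gc (h : Sz A w O g Ci) {S : Finset ι} (hS : S ⊆ O) (v : ι → ℂ) :
    ∑ y ∈ S, ∑ a, ‖gc A w O y a‖ ^ 2 * ‖v a‖ ^ 2 ≤ Ci / g * nsq v := by
  rw [sum_comm, nsq, mul_sum]
  refine sum_le_sum fun a _ => ?_
  rw [← sum_mul]
  gcongr
  by_cases ha : a ∈ O
  · exact (sum_le_sum fun y _ => by gcongr; exact norm_gc_le a).trans (h.row ha hS)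
  · have := h.g0
    have := h.C0
    rw [sum_eq_zero fun y _ => by rw [gc_of_not fun h => ha (mem_of_mem_erase h)]; simp]
    positivity

theorem Sz.drift (h : Sz A w O g Ci) {S : Finset ι} (hS : S ⊆ O) {β : ι → ℂ} {b : ℝ} (hb : 0 ≤ b)
    (hβ : ∀ y ∈ S, ‖β y‖ ≤ b * gam w y) :
    ‖∑ y ∈ S, (-2 * β y) • DGD A w O y‖ ≤ 2 * b * Ci / g := by
  have hg := h.g0
  have hC := h.C0
  have hγ : ∀ y ∈ S, 0 < gam w y := fun y hy => hg.trans_le (h.gam_ge y (hS hy))
  set P : Matrix ι ι ℂ := fun a y =>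
    if y ∈ S then -2 * β y / (√(gam w y) : ℝ) * gc A w O y a else 0 with hP
  set Q : Matrix ι ι ℂ := fun a y => if y ∈ S then (√(gam w y) : ℝ) * gc A w O y a else 0 with hQ
  have e : ∑ y ∈ S, (-2 * β y) • DGD A w O y = Matrix.hadamard (cmp (Gm A w) O) (P * Qᵀ) := by
    ext a c
    rw [Matrix.sum_apply, hadamard_apply, Matrix.mul_apply, mul_sum,
      ← sum_subset (subset_univ S) fun y _ hy => by simp [hP, hy]]
    refine sum_congr rfl fun y hy => ?_
    have : ((√(gam w y) : ℝ) : ℂ) ≠ 0 := ofReal_ne_zero.2 (Real.sqrt_pos.2 (hγ y hy)).ne'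
    simp only [Matrix.smul_apply, DGD, mul_diagonal, diagonal_mul, hP, hQ, transpose_apply, hy,
      if_true, smul_eq_mul]
    field_simp
  have hrow : ∀ a, ∑ y ∈ S, gam w y * ‖gc A w O y a‖ ^ 2 ≤ Ci := by
    intro a
    by_cases ha : a ∈ O
    · refine le_trans ?_ ((h.adm.ward_diag a).le.trans (h.im_le a ha))
      refine (sum_le_sum fun y hy => ?_).trans (sum_le_sum_of_subset_of_nonneg (subset_univ S)
        fun b _ _ => mul_nonneg (h.adm.diss b) (by positivity))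
      have := hγ y hy
      gcongr; exact norm_gc_le a
    · rw [sum_eq_zero fun y _ => by rw [gc_of_not fun h => ha (mem_of_mem_erase h)]; simp]
      exact hC
  rw [e]
  refine (norm_hadamard_le _ P Q (a := 2 * b * √Ci) (b := √Ci) (by positivity) (by positivity)
    (fun a => ?_) fun a => ?_).trans ?_
  · rw [← sum_subset (subset_univ S) fun y _ hy => by simp [hP, hy], mul_pow, Real.sq_sqrt hC]
    refine le_trans ?_ (mul_le_mul_of_nonneg_left (hrow a) (by positivity))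
    rw [mul_sum]
    refine sum_le_sum fun y hy => ?_
    have h1 := hγ y hy
    simp only [hP, hy, if_true, norm_mul, norm_div, norm_neg, Complex.norm_two, Complex.norm_real,
      Real.norm_of_nonneg (Real.sqrt_nonneg _), mul_pow, div_pow, Real.sq_sqrt h1.le]
    calc _ ≤ 2 ^ 2 * (b * gam w y) ^ 2 / gam w y * ‖gc A w O y a‖ ^ 2 := by
          gcongr; exact hβ y hy
      _ = _ := by field_simp
  · rw [← sum_subset (subset_univ S) fun y _ hy => by simp [hQ, hy], Real.sq_sqrt hC]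
    refine le_trans (le_of_eq (sum_congr rfl fun y hy => ?_)) (hrow a)
    simp only [hQ, hy, if_true, norm_mul, Complex.norm_real,
      Real.norm_of_nonneg (Real.sqrt_nonneg _), mul_pow, Real.sq_sqrt (hγ y hy).le]
  · have := h.adm.norm_cmp hg h.gam_ge
    calc _ ≤ 1 / g * (2 * b * √Ci) * √Ci := by gcongr
      _ = 2 * b * (√Ci * √Ci) / g := by ring
      _ = _ := by rw [Real.mul_self_sqrt hC]

end Crest.Agent.N334.AC.M7
end

-- ▼ part N334/AC/M7/Main
section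

/-! # S0520 (helper74): the monitor M7 (Schur square of the Green matrix on ordinary ports) -/

set_option autoImplicit false

open Finset Matrix Complex
open scoped Matrix.Norms.L2Operator

namespace Crest.Agent.N334.AC.M7

section Blk

variable {ι B : Type} [Fintype ι] [DecidableEq ι] [Fintype B] [DecidableEq B]

/-- embedding matrix -/
def emb (e : B → ι) (Q : Finset ι) : Matrix ι B ℂ := fun a u => if e u = a ∧ a ∈ Q then 1 else 0

theorem bd_emb {e : B → ι} (he : Function.Injective e) (Q : Finset ι) : Bd (emb e Q) 1 := by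
  have h1 := bd_schur (emb e Q) (R := 1) (C := 1) zero_le_one zero_le_one (fun a => ?_) fun u => ?_
  · simpa using h1
  · by_cases ha : ∃ u, e u = a
    · obtain ⟨u, rfl⟩ := ha
      by_cases hq : e u ∈ Q <;> simp [emb, he.eq_iff, apply_ite, hq]
    · push Not at ha
      simp [emb, ha]
  · rw [sum_eq_single (e u)]
    · by_cases hq : e u ∈ Q <;> simp [emb, hq]
    · intro a _ ha; simp [emb, ha.symm]
    · simp

omit [Fintype B] [DecidableEq B] in
theorem blk_eq (X : Matrix ι ι ℂ) (e : B → ι) (Q : Finset ι) :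
    blk X e Q = (emb e Q)ᵀ * X * emb e Q := by
  ext u v
  simp only [Matrix.mul_apply, Matrix.transpose_apply, emb, ite_mul, one_mul, zero_mul, mul_ite,
    mul_one, mul_zero, ite_and, sum_ite_eq, mem_univ, if_true]
  by_cases h1 : e u ∈ Q <;> by_cases h2 : e v ∈ Q <;> simp [blk, h1, h2]

theorem norm_blk_le (X : Matrix ι ι ℂ) {e : B → ι} (he : Function.Injective e) (Q : Finset ι) :
    ‖blk X e Q‖ ≤ ‖X‖ := (norm_blk X he Q).le.trans (norm_cmp_le _ _)

/-- generic block monitor for symmetric increments -/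
theorem blk_locA {Λ : Type} [Fintype Λ] [DecidableEq Λ] {A U : Finset Λ} {N : ℕ} (hN : 0 < N)
    {dt Z T t s j D q : ℝ} {e : B → ι} (he : Function.Injective e) (Q : Finset ι)
    (X : Matrix ι ι ℂ) {Y : Λ → ℕ → Matrix ι ι ℂ} (hdt : 0 ≤ dt) (hZ : 0 < Z) (hT : 0 < T)
    (hs : 0 ≤ s) (hq : 0 ≤ q) (hY : ∀ y ∈ A ∩ U, ∀ k, (Y y k)ᵀ = Y y k)
    (hj : ∀ y ∈ A ∩ U, ∀ k < N, ‖Y y k‖ ≤ j) (hD : ‖∑ y ∈ A ∩ U, avgV N (Y y)‖ ≤ D)
    (hQ : ∀ v, ∑ y ∈ A ∩ U, avg N (fun k => nsq (Y y k *ᵥ v)) ≤ q * nsq v)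
    (h1 : Z * (s * j) ≤ 1) (h2 : s * D ≤ 1 / (4 * T)) (h3 : Z * (s ^ 2 * q) ≤ 1 / (4 * T)) :
    LocA A N dt U (potM Z T t 0 ((s : ℂ) • blk X e Q))
      fun ω => potM Z T (t + dt) 0 ((s : ℂ) • blk (accUp U X 0 Y ω) e Q) := by
  have hns : ‖(s : ℂ)‖ = s := by rw [Complex.norm_real, Real.norm_of_nonneg hs]
  have key : ∀ v : B → ℂ, Z * ∑ y ∈ A ∩ U,
      avg N (fun k => nsq (((s : ℂ) • blk (Y y k) e Q) *ᵥ v)) ≤ 1 / (4 * T) * nsq v := by
    intro v
    have h4 : ∑ y ∈ A ∩ U, avg N (fun k => nsq (((s : ℂ) • blk (Y y k) e Q) *ᵥ v)) ≤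
        s ^ 2 * ∑ y ∈ A ∩ U, avg N (fun k => nsq (Y y k *ᵥ emb e Q *ᵥ v)) := by
      rw [mul_sum]
      refine sum_le_sum fun y _ => ?_
      rw [← avg_mul]
      refine avg_mono fun k _ => ?_
      rw [smul_mulVec, nsq_smul, hns, blk_eq, ← mulVec_mulVec, ← mulVec_mulVec]
      gcongr
      simpa using (bd_emb he Q).transpose (Y y k *ᵥ emb e Q *ᵥ v)
    have h5 : nsq (emb e Q *ᵥ v) ≤ nsq v := by simpa using bd_emb he Q v
    have h6 := nsq_nonneg v
    calc _ ≤ Z * (s ^ 2 * (q * nsq v)) := by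
          gcongr
          exact h4.trans (by gcongr; exact (hQ _).trans (by gcongr))
      _ = Z * (s ^ 2 * q) * nsq v := by ring
      _ ≤ _ := by gcongr
  have := potM_locA (A := A) (U := U) hN (dt := dt) (Z := Z) (T := T) (t := t) (R := 0) (R' := 0)
    (X := (s : ℂ) • blk X e Q) (J := fun y k => (s : ℂ) • blk (Y y k) e Q) hdt hZ hT
    (fun y hy k hk => le_trans (by
      rw [norm_smul, hns]; gcongr; exact (norm_blk_le _ he Q).trans (hj y hy k hk)) h1)
    (by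
      have e1 : ∑ y ∈ A ∩ U, avgV N (fun k => (s : ℂ) • blk (Y y k) e Q) =
          (s : ℂ) • blk (∑ y ∈ A ∩ U, avgV N (Y y)) e Q := by
        simp only [blk_eq, avgV, Matrix.mul_sum, Matrix.sum_mul, smul_sum, Matrix.mul_smul,
          Matrix.smul_mul]
        exact sum_congr rfl fun y _ => sum_congr rfl fun k _ => smul_comm _ _ _
      rw [e1, norm_smul, hns, sub_self, zero_add, div_eq_mul_one_div dt]
      gcongr
      exact le_trans (by gcongr; exact (norm_blk_le _ he Q).trans hD) h2)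
    key fun v => by
      have h4 := key (star v)
      rw [nsq_star] at h4
      refine le_trans (le_of_eq ?_) h4
      congr 1
      refine sum_congr rfl fun y hy => ?_
      congr 1
      funext k
      have e2 : ((s : ℂ) • blk (Y y k) e Q)ᵀ = (s : ℂ) • blk (Y y k) e Q := by
        simp only [blk_eq, transpose_smul, transpose_mul, transpose_transpose, hY y hy k,
          Matrix.mul_assoc]
      rw [← nsq_star, star_mulVec, conjTranspose_conjTranspose, ← mulVec_transpose, e2]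
  convert this using 3 with ω
  rcases ω with _ | ⟨y, k⟩
  · simp [accUp]
  · by_cases hy : y ∈ U <;> simp [accUp, hy, blk_eq, Matrix.mul_add, Matrix.add_mul]

end Blk

variable {d M : ℕ} [NeZero M]

/-- record of the increments, indexed by the closed site -/
abbrev Rec7 (d M : ℕ) := Tor d M → Matrix (Tor d M) (Tor d M) ℂ

/-- increment at the closing of `y` with digit `k` -/
noncomputable def inc (A : Matrix (Tor d M) (Tor d M) ℂ) (w : Tor d M → ℂ) (O : Finset (Tor d M))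
    (N : ℕ) (vv : Tor d M → ℕ → ℝ) (y : Tor d M) (k : ℕ) : Matrix (Tor d M) (Tor d M) ℂ :=
  Y7 A w O y (tau (Gm A w y y) (w y) (vv y k)) (avgV N fun i => tau (Gm A w y y) (w y) (vv y i) ^ 2)

/-- update of the record -/
noncomputable def step7 (A : Matrix (Tor d M) (Tor d M) ℂ) (w : Tor d M → ℂ)
    (O : Finset (Tor d M)) (N : ℕ) (vv : Tor d M → ℕ → ℝ) (Ys : Rec7 d M) :
    Option (Tor d M × ℕ) → Rec7 d M
  | none => Ys
  | some (y, k) => fun z => Ys z + if z = y then inc A w O N vv y k else 0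

/-- the monitored matrix -/
noncomputable def mon7 {B : Type} (e : B → Tor d M) (s : ℝ) (L : ℕ) (Ys : Rec7 d M) (p : Tor d M) :
    Matrix B B ℂ := (s : ℂ) • blk (∑ y ∈ tball p L, Ys y) e univ

/-- bookkeeping of a closing phase started at `(w0, O0)` -/
structure Track7 (A : Matrix (Tor d M) (Tor d M) ℂ) (O0 : Finset (Tor d M)) (w0 w : Tor d M → ℂ)
    (O : Finset (Tor d M)) (Ys : Rec7 d M) (a c θ : ℝ) : Prop where
  zero : ∀ y ∈ O, Ys y = 0
  loc : ∀ y x z, ‖Ys y x z‖ ≤ c * (Real.exp (-θ * tdist x y) * Real.exp (-θ * tdist z y))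
  sub : O ⊆ O0
  ext : ∀ u, Supp u O → ∃ U, Supp U O0 ∧ (∀ x ∈ O, U x = u x) ∧
    a * nsq U - (U ⬝ᵥ (RR A w0 + ∑ y, Ys y) *ᵥ U).re ≤ a * nsq u - (u ⬝ᵥ RR A w *ᵥ u).re

variable {A : Matrix (Tor d M) (Tor d M) ℂ} {O0 O : Finset (Tor d M)} {w0 w : Tor d M → ℂ}
  {Ys : Rec7 d M} {a c θ : ℝ}

theorem Track7.init (A : Matrix (Tor d M) (Tor d M) ℂ) (O : Finset (Tor d M)) (w : Tor d M → ℂ)
    (a : ℝ) (hc : 0 ≤ c) (θ : ℝ) : Track7 A O w w O 0 a c θ :=
  ⟨fun _ _ => rfl, fun y x z => by simp; positivity, subset_rfl,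
    fun u hu => ⟨u, hu, fun _ _ => rfl, by simp⟩⟩

theorem Track7.shrink (h : Track7 A O0 w0 w O Ys a c θ) {O' : Finset (Tor d M)} (hO : O' ⊆ O) :
    Track7 A O0 w0 w O' Ys a c θ :=
  ⟨fun y hy => h.zero y (hO hy), h.loc, hO.trans h.sub, fun u hu => by
    obtain ⟨U, h1, h2, h3⟩ := h.ext u fun x hx => hu x fun h' => hx (hO h')
    exact ⟨U, h1, fun x hx => h2 x (hO hx), h3⟩⟩

theorem Track7.close (h : Track7 A O0 w0 w O Ys a c θ) (hA : Adm A w) {y : Tor d M} (hy : y ∈ O)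
    {N k : ℕ} {vv : Tor d M → ℕ → ℝ} {C A1 : ℝ} (ha : 0 < a)
    (hne : 1 + ((vv y k : ℂ) - w y) * Gm A w y y ≠ 0) (hC : ‖Gm A w y y‖ ≤ C)
    (he : ‖avgV N fun i => tau (Gm A w y y) (w y) (vv y i) ^ 2‖ * (a + C ^ 2) ≤ 1)
    (he1 : ‖avgV N fun i => tau (Gm A w y y) (w y) (vv y i) ^ 2‖ ≤ 1)
    (hτ : ‖tau (Gm A w y y) (w y) (vv y k)‖ ≤ 1) (hθ : 0 ≤ θ) (hA1 : 1 ≤ A1)
    (hdec : ∀ x ∈ O, ∀ z ∈ O, ‖Gm A w x z‖ ≤ A1 * Real.exp (-θ * tdist x z))
    (hc : 4 * A1 ^ 4 ≤ c) :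
    Track7 A O0 w0 (cls1 w y (vv y k)) (O.erase y) (step7 A w O N vv Ys (some (y, k))) a c θ := by
  have hsum : ∑ z, step7 A w O N vv Ys (some (y, k)) z = ∑ z, Ys z + inc A w O N vv y k := by
    simp [step7, sum_add_distrib]
  refine ⟨fun z hz => by
    simp [step7, ne_of_mem_erase hz, h.zero z (mem_of_mem_erase hz)], fun z x x' => ?_,
    (erase_subset y O).trans h.sub, fun u hu => ?_⟩
  · by_cases hz : z = y
    · subst hz
      simp only [step7, if_true, h.zero z hy, zero_add, inc]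
      have hc0 : 0 ≤ c := le_trans (by positivity) hc
      by_cases hx : x ∈ O.erase z
      · by_cases hx' : x' ∈ O.erase z
        · rw [Y7_apply, gc_of_mem hx, gc_of_mem hx']
          have le1 : ∀ p q : Tor d M, Real.exp (-θ * tdist p q) ≤ 1 := fun p q =>
            Real.exp_le_one_iff.2 (by have : (0 : ℝ) ≤ tdist p q := by positivity
                                      nlinarith)
          have h1 := hdec x (mem_of_mem_erase hx) z hy
          have h2 := hdec x' (mem_of_mem_erase hx') z hy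
          have h3 : ‖Gm A w x x'‖ ≤ A1 := (hdec x (mem_of_mem_erase hx) x'
            (mem_of_mem_erase hx')).trans (mul_le_of_le_one_right (by linarith) (le1 _ _))
          have h1' := h1.trans (mul_le_of_le_one_right (by linarith) (le1 _ _))
          have h2' := h2.trans (mul_le_of_le_one_right (by linarith) (le1 _ _))
          have h4 : ‖tau (Gm A w z z) (w z) (vv z k) ^ 2 -
              avgV N fun i => tau (Gm A w z z) (w z) (vv z i) ^ 2‖ ≤ 2 := by
            refine (norm_sub_le _ _).trans ?_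
            have : ‖tau (Gm A w z z) (w z) (vv z k) ^ 2‖ ≤ 1 := by
              rw [norm_pow]; exact pow_le_one₀ (norm_nonneg _) hτ
            linarith
          refine (norm_add_le _ _).trans ?_
          simp only [norm_mul, norm_neg, Complex.norm_two, sq (Gm A w _ _)]
          set p := Real.exp (-θ * tdist x z)
          set q := Real.exp (-θ * tdist x' z)
          have hp : 0 ≤ p := Real.exp_nonneg _
          have hq : 0 ≤ q := Real.exp_nonneg _
          calc _ ≤ 2 * 1 * (A1 * p * (A1 * A1) * (A1 * q)) +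
                2 * (A1 * (A1 * p) * (A1 * (A1 * q))) := by gcongr; nlinarith
            _ = 4 * A1 ^ 4 * (p * q) := by ring
            _ ≤ _ := by gcongr
        · simp [Y7_apply, gc_of_not hx']; positivity
      · simp [Y7_apply, gc_of_not hx]; positivity
    · simpa [step7, hz] using h.loc z x x'
  · obtain ⟨z, hz⟩ := schur_step hA ha hC he (u := u) (hu y (notMem_erase y O))
    obtain ⟨U, h1, h2, h3⟩ := h.ext (Function.update u y z) fun x hx => by
      rw [Function.update_of_ne (by rintro rfl; exact hx hy)]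
      exact hu x fun h' => hx (mem_of_mem_erase h')
    have h4 : ∀ x ∈ O.erase y, U x = u x := fun x hx => by
      rw [h2 x (mem_of_mem_erase hx), Function.update_of_ne (ne_of_mem_erase hx)]
    refine ⟨U, h1, h4, ?_⟩
    rw [hsum, ← add_assoc, add_mulVec, dotProduct_add, add_re, inc, Y7_form_congr h4,
      form_close hA hne (avgV N fun i => tau (Gm A w y y) (w y) (vv y i) ^ 2) hu, add_re, add_re]
    linarith

theorem Track7.norm_le (h : Track7 A O0 w0 w O Ys a c θ) (hA : Adm A w) {b0 b1 : ℝ}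
    (h0 : ‖cmp (RR A w0) O0‖ ≤ b0) (h1 : ‖∑ y, Ys y‖ ≤ b1) (hab : b0 + b1 ≤ a) :
    ‖cmp (RR A w) O‖ ≤ b0 + b1 := by
  have hb0 := (norm_nonneg _).trans h0
  have hb1 := (norm_nonneg _).trans h1
  refine norm_cmp_le_of_form (by positivity) fun x y hx hy =>
    form_le_of_re (RR_symm hA) (by positivity) (fun u hu => ?_) hx hy
  obtain ⟨U, h2, h3, h4⟩ := h.ext u hu
  have hn := nsq_nonneg U
  have form : ∀ X : Matrix (Tor d M) (Tor d M) ℂ, (U ⬝ᵥ X *ᵥ U).re ≤ ‖X‖ * nsq U := fun X =>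
    (re_le_norm _).trans (abs_le_of_sq_le_sq' ((norm_form_sq_le X U U).trans (le_of_eq (by ring)))
      (by positivity)).2
  have h5 := form (cmp (RR A w0) O0)
  rw [form_cmp _ h2 h2] at h5
  have h6 := form (∑ y, Ys y)
  have h7 : nsq u ≤ nsq U := sum_le_sum fun x _ => by
    by_cases hx : x ∈ O
    · rw [h3 x hx]
    · rw [hu x hx, norm_zero]; simp
  rw [add_mulVec, dotProduct_add, add_re] at h4
  nlinarith [mul_le_mul_of_nonneg_right h0 hn, mul_le_mul_of_nonneg_right h1 hn,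
    mul_le_mul_of_nonneg_left h7 (sub_nonneg.2 hab)]

theorem glue7 {B : Type} [Fintype B] [DecidableEq B] {e : Tor d M → B → Tor d M} {s b : ℝ} {L : ℕ}
    (hloc : ∀ y x z, ‖Ys y x z‖ ≤ c * (Real.exp (-θ * tdist x y) * Real.exp (-θ * tdist z y)))
    (hθ : 0 < θ) (hθ1 : θ ≤ 1) (hs : 0 < s) (he : ∀ p, Function.Injective (e p))
    (hcov : ∀ p, tball p (2 * L) ⊆ univ.image (e p)) (hb : ∀ p, ‖mon7 (e p) s L Ys p‖ ≤ b) :
    ‖∑ y, Ys y‖ ≤ 2 ^ d * (b / s) + c * Real.exp (-θ * L / 2) * (6 * d / θ) ^ (2 * d) := by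
  have hV : 0 < vol d M L := lt_of_lt_of_le one_pos (one_le_vol L)
  have hc : 0 ≤ c := by simpa [tdist_self] using (norm_nonneg _).trans (hloc 0 0 0)
  have hb0 : 0 ≤ b := (norm_nonneg _).trans (hb 0)
  set P : Matrix (Tor d M) (Tor d M) ℂ :=
    ∑ p, cmp (∑ y ∈ tball p L, Ys y) (tball p (2 * L)) with hP
  have h1 : ‖P‖ ≤ vol d M (2 * L) * (b / s) := by
    refine norm_sum_local_le univ _ (fun p => tball p (2 * L)) (by positivity)
      (fun p _ => ⟨?_, ?_⟩) fun x => (card_filter_mem_tball x _).le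
    · ext x z; simp only [cmp]; split_ifs <;> rfl
    · have h2 := hb p
      rw [mon7, norm_smul, Complex.norm_real, Real.norm_of_nonneg hs.le, norm_blk _ (he p),
        univ_inter] at h2
      rw [le_div_iff₀' hs]
      exact le_trans (by gcongr; exact norm_cmp_mono _ (hcov p)) h2
  have h2 : ‖((vol d M L : ℝ) : ℂ) • ∑ y, Ys y - P‖ ≤
      vol d M L * (c * Real.exp (-θ * L / 2) * (6 * d / θ) ^ (2 * d)) := by
    have hs1 : ∀ p : Tor d M, ∑ x, Real.exp (-(θ / 2) * tdist x p) ≤ (6 * d / θ) ^ d := fun p =>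
      (sum_exp_le (θ := θ / 2) (by positivity) (by linarith) p).trans
        (le_of_eq (by congr 1; field_simp; ring))
    refine (bd_iff_norm (by positivity)).1 (bd_of_le (k := fun x z => vol d M L *
      (c * Real.exp (-θ * L / 2) *
        ∑ y, Real.exp (-(θ / 2) * tdist x y) * Real.exp (-(θ / 2) * tdist z y)))
      (by positivity) (fun x z => ?_) (fun x z => by simp only [mul_comm]) fun x => ?_)
    · have e1 : (((vol d M L : ℝ) : ℂ) • ∑ y, Ys y - P) x z = ∑ y, ∑ p ∈ tball y L,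
          if x ∈ tball p (2 * L) ∧ z ∈ tball p (2 * L) then 0 else Ys y x z := by
        have e2 : P x z = ∑ y, ∑ p ∈ tball y L,
            if x ∈ tball p (2 * L) ∧ z ∈ tball p (2 * L) then Ys y x z else 0 := by
          rw [hP, Matrix.sum_apply, sum_comm' (s' := fun p => tball p L) (t' := univ)
            (by intro y p; simp [mem_tball, tdist_comm])]
          refine sum_congr rfl fun p _ => ?_
          simp only [cmp, Matrix.sum_apply]
          split_ifs <;> simp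
        rw [Matrix.sub_apply, Matrix.smul_apply, Matrix.sum_apply, e2, smul_eq_mul, mul_sum,
          ← sum_sub_distrib]
        refine sum_congr rfl fun y _ => ?_
        rw [← card_tball y L, ofReal_natCast, ← nsmul_eq_mul, ← sum_const, ← sum_sub_distrib]
        exact sum_congr rfl fun p _ => by split_ifs <;> simp
      rw [e1, mul_sum, mul_sum]
      refine (norm_sum_le _ _).trans (sum_le_sum fun y _ => ?_)
      rw [← card_tball y L, ← nsmul_eq_mul, ← sum_const]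
      refine (norm_sum_le _ _).trans (sum_le_sum fun p hp => ?_)
      split_ifs with hxz
      · rw [norm_zero]; positivity
      refine (hloc y x z).trans ?_
      rw [mul_assoc, ← Real.exp_add, ← Real.exp_add, ← Real.exp_add]
      refine mul_le_mul_of_nonneg_left (Real.exp_le_exp.2 ?_) hc
      have h3 : L ≤ tdist x y + tdist z y := by
        rw [mem_tball] at hp
        rw [mem_tball, mem_tball] at hxz
        have := tdist_triangle x y p
        have := tdist_triangle z y p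
        rw [tdist_comm] at hp
        omega
      have h4 : (L : ℝ) ≤ tdist x y + tdist z y := by exact_mod_cast h3
      nlinarith
    · rw [← mul_sum, ← mul_sum, sum_comm, two_mul d, pow_add]
      gcongr
      simp only [← mul_sum]
      refine (sum_le_sum fun y _ => mul_le_mul_of_nonneg_left (hs1 y) (by positivity)).trans ?_
      rw [← sum_mul]
      gcongr
      simpa only [tdist_comm x] using hs1 x
  have h3 : vol d M L * ‖∑ y, Ys y‖ ≤ vol d M L * (2 ^ d * (b / s) +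
      c * Real.exp (-θ * L / 2) * (6 * d / θ) ^ (2 * d)) := by
    have h4 := norm_sub_norm_le (((vol d M L : ℝ) : ℂ) • ∑ y, Ys y) P
    rw [norm_smul, Complex.norm_real, Real.norm_of_nonneg hV.le] at h4
    have h5 := vol_mul_le (d := d) (M := M) 2 L (by norm_num)
    have h6 : vol d M (2 * L) * (b / s) ≤ 2 ^ d * vol d M L * (b / s) := by
      gcongr; exact_mod_cast h5
    nlinarith
  exact le_of_mul_le_mul_left h3 hV

theorem mon7_zero {B : Type} (e : B → Tor d M) (s : ℝ) (L : ℕ) (p : Tor d M) :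
    mon7 e s L (0 : Rec7 d M) p = 0 := by
  ext u v; simp [mon7, blk]

theorem mon7_step {B : Type} (e : B → Tor d M) (s : ℝ) (L N : ℕ) (vv : Tor d M → ℕ → ℝ)
    (p : Tor d M) (ω : Option (Tor d M × ℕ)) : mon7 e s L (step7 A w O N vv Ys ω) p =
      (s : ℂ) • blk (accUp (tball p L) (∑ y ∈ tball p L, Ys y) 0 (inc A w O N vv) ω) e univ := by
  rcases ω with _ | ⟨y, k⟩
  · simp [mon7, step7, accUp]
  · simp [mon7, step7, accUp, sum_add_distrib]

/-- quadratic variation constant -/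
noncomputable def q7 (g Ci ν τ1 ε : ℝ) : ℝ :=
  (8 * τ1 ^ 2 * (ε / g ^ 2 + ν / ε * (Ci / g)) + 8 * τ1 ^ 4 * ν * (Ci / g)) * (Ci / g)

theorem mon7_locA {B : Type} [Fintype B] [DecidableEq B] {e : B → Tor d M}
    (he : Function.Injective e) {Act : Finset (Tor d M)} {N L : ℕ} {p : Tor d M}
    {vv : Tor d M → ℕ → ℝ} {g Ci Cs ν τ1 ε b s dt Z T t : ℝ} (hN : 0 < N) (hdt : 0 ≤ dt)
    (hZ : 0 < Z) (hT : 0 < T) (hs : 0 ≤ s) (h : Sz A w O g Ci) (hAct : Act ⊆ O) (hCs : 0 ≤ Cs)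
    (hε : 0 < ε) (hb : 0 ≤ b) (hν0 : 0 ≤ ν)
    (hsup : ∀ y ∈ Act ∩ tball p L, ∀ x ∈ O.erase y, ‖Gm A w x y‖ ≤ Cs)
    (hν : ∀ y ∈ Act ∩ tball p L, ∑ x ∈ O.erase y, ‖Gm A w x y‖ ^ 4 ≤ ν)
    (hτ : ∀ y ∈ Act ∩ tball p L, ∀ k < N, ‖tau (Gm A w y y) (w y) (vv y k)‖ ≤ τ1)
    (hβ : ∀ y ∈ Act ∩ tball p L,
      ‖avgV N fun k => tau (Gm A w y y) (w y) (vv y k)‖ ≤ b * gam w y)
    (h1 : Z * (s * (2 * τ1 * Cs ^ 2 / g + 2 * τ1 ^ 2 * ν)) ≤ 1)
    (h2 : s * (2 * b * Ci / g) ≤ 1 / (4 * T)) (h3 : Z * (s ^ 2 * q7 g Ci ν τ1 ε) ≤ 1 / (4 * T)) :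
    LocA Act N dt (tball p L) (potM Z T t 0 (mon7 e s L Ys p))
      fun ω => potM Z T (t + dt) 0 (mon7 e s L (step7 A w O N vv Ys ω) p) := by
  have hg := h.g0
  have hC := h.C0
  have hS : Act ∩ tball p L ⊆ O := inter_subset_left.trans hAct
  have he2 : ∀ y ∈ Act ∩ tball p L,
      ‖avgV N fun i => tau (Gm A w y y) (w y) (vv y i) ^ 2‖ ≤ τ1 ^ 2 := fun y hy =>
    (norm_avgV_le N _).trans ((avg_mono fun k hk => by
      rw [norm_pow]; gcongr; exact hτ y hy k hk).trans (avg_const hN _).le)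
  simp only [mon7_step]
  refine blk_locA hN he univ _ hdt hZ hT hs (by unfold q7; positivity)
    (fun y _ k => Y7_symm h.adm)
    (fun y hy k hk => h.norm_Y7 hCs (hsup y hy) (hν y hy) (hτ y hy k hk) (he2 y hy)) ?_
    (fun v => ?_) h1 h2 h3
  · refine le_trans (le_of_eq ?_) (h.drift hS hb hβ)
    congr 1
    refine sum_congr rfl fun y _ => ?_
    have hN' : (N : ℂ) ≠ 0 := by exact_mod_cast hN.ne'
    ext x z
    simp only [avgV, inc, Matrix.smul_apply, Matrix.sum_apply, Y7_apply, DGD_apply, sum_add_distrib,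
      ← sum_mul, ← mul_sum, sum_sub_distrib, sum_const, card_range, smul_eq_mul, real_smul,
      nsmul_eq_mul, ofReal_inv, ofReal_natCast]
    field_simp
    ring
  · refine (sum_le_sum fun y hy => (avg_mono fun k hk => h.nsq_Y7 hε (hν y hy) (hS hy)
      (hτ y hy k hk) (he2 y hy) v).trans (avg_const hN _).le).trans ?_
    rw [← mul_sum, q7, mul_assoc _ (Ci / g)]
    exact mul_le_mul_of_nonneg_left (h.sum_gc hS v) (by positivity)

end Crest.Agent.N334.AC.M7
private theorem rz_2cf75e3813 : type_of% @_root_.Crest.Agent.N334.AC.M7.step7.eq_1 := @_root_.Crest.Agent.N334.AC.M7.step7.eq_1 -- L117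
end

-- ▼ part N334/AC/M7/M5

/-! # S0520 (helper74): block-norm monitor (M5), pair monitor (M1), pure one-step lemmas -/

set_option autoImplicit false

open Finset Matrix Complex
open scoped Matrix.Norms.L2Operator

namespace Crest.Agent.N334.AC.M5

variable {ι : Type} [Fintype ι] [DecidableEq ι]

/-- column `y` of `G` on `Q` -/
noncomputable def col (A : Matrix ι ι ℂ) (w : ι → ℂ) (Q : Finset ι) (y : ι) : ι → ℂ :=
  cut Q fun a => Gm A w a y

/-- change of the block `G_{QQ}` at the closing of `y` with coefficient `τ` -/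
noncomputable def Y5 (A : Matrix ι ι ℂ) (w : ι → ℂ) (Q : Finset ι) (y : ι) (τ : ℂ) : Matrix ι ι ℂ :=
  (-τ) • vecMulVec (col A w Q y) (col A w Q y)

variable {A : Matrix ι ι ℂ} {w : ι → ℂ} {Q : Finset ι} {y : ι} {τ : ℂ}

theorem nsq_col : nsq (col A w Q y) = ∑ x ∈ Q, ‖Gm A w x y‖ ^ 2 := nsq_cut _ _

theorem cmp_close (h : Adm A w) {v : ℝ} (hne : 1 + ((v : ℂ) - w y) * Gm A w y y ≠ 0) :
    cmp (Gm A (cls1 w y v)) Q = cmp (Gm A w) Q + Y5 A w Q y (tau (Gm A w y y) (w y) v) := by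
  ext a b
  by_cases ha : a ∈ Q <;> by_cases hb : b ∈ Q <;>
    simp [cmp, Y5, col, cut, vecMulVec_apply, ha, hb]
  rw [h.close_G hne, h.G_sym y b]; ring

theorem Y5_symm : (Y5 A w Q y τ)ᵀ = Y5 A w Q y τ := by
  ext a b; simp [Y5, vecMulVec_apply, mul_comm]


theorem Y5_mulVec (v : ι → ℂ) :
    Y5 A w Q y τ *ᵥ v = (-τ * (Gm A w y ⬝ᵥ cut Q v)) • col A w Q y ∨ ¬ Adm A w := by
  by_cases h : Adm A w
  · left
    funext a
    simp only [Y5, mulVec, dotProduct, vecMulVec_apply, Matrix.smul_apply, Pi.smul_apply,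
      smul_eq_mul, mul_sum, sum_mul]
    refine sum_congr rfl fun b _ => ?_
    by_cases hb : b ∈ Q
    · simp only [col, cut, hb, if_true, h.G_sym y b]; ring
    · simp [col, cut, hb]
  · exact Or.inr h

theorem norm_Y5 : ‖Y5 A w Q y τ‖ ≤ ‖τ‖ * ∑ x ∈ Q, ‖Gm A w x y‖ ^ 2 := by
  rw [Y5, norm_smul, norm_neg, ← nsq_col]
  gcongr
  refine abs_le_of_sq_le_sq' ((norm_sq_le_hs _).trans (le_of_eq ?_)) (nsq_nonneg _) |>.2
  simp only [vecMulVec_apply, norm_mul, mul_pow, ← mul_sum, ← sum_mul]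
  rw [sq (nsq _)]; rfl

/-- Ward on a block -/
theorem ward_cut (h : Adm A w) (S : Finset ι) (v : ι → ℂ) :
    ∑ y ∈ S, gam w y * ‖Gm A w y ⬝ᵥ cut Q v‖ ^ 2 ≤ ‖cmp (Gm A w) Q‖ * nsq v := by
  have h1 := h.G_ward (cut Q v)
  have hs : Supp (cut Q v) Q := fun a ha => by simp [cut, ha]
  have hs' : Supp (star (cut Q v)) Q := fun a ha => by simp [cut, ha]
  rw [← form_cmp _ hs' hs] at h1
  have h2 := norm_form_sq_le (cmp (Gm A w) Q) (star (cut Q v)) (cut Q v)
  rw [nsq_star] at h2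
  have h3 := nsq_nonneg (cut Q v)
  have h4 : ‖star (cut Q v) ⬝ᵥ cmp (Gm A w) Q *ᵥ cut Q v‖ ≤ ‖cmp (Gm A w) Q‖ * nsq (cut Q v) :=
    (abs_le_of_sq_le_sq' (h2.trans (le_of_eq (by ring))) (by positivity)).2
  calc _ ≤ ∑ y, gam w y * ‖(Gm A w *ᵥ cut Q v) y‖ ^ 2 :=
        sum_le_sum_of_subset_of_nonneg (subset_univ S) fun b _ _ =>
          mul_nonneg (h.diss b) (by positivity)
    _ ≤ ‖cmp (Gm A w) Q‖ * nsq (cut Q v) := h1.le.trans ((im_le_norm _).trans h4)
    _ ≤ _ := by gcongr; exact nsq_cut_le _ _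

theorem drift_Y5 (h : Adm A w) (S : Finset ι) {β : ι → ℂ} {b : ℝ} (hb : 0 ≤ b)
    (hβ : ∀ y ∈ S, ‖β y‖ ≤ b * gam w y) :
    ‖∑ y ∈ S, Y5 A w Q y (β y)‖ ≤ b * ‖cmp (Gm A w) Q‖ := by
  refine norm_le_of_form (by positivity) fun u v => ?_
  have e : u ⬝ᵥ (∑ y ∈ S, Y5 A w Q y (β y)) *ᵥ v =
      ∑ y ∈ S, -β y * ((Gm A w y ⬝ᵥ cut Q u) * (Gm A w y ⬝ᵥ cut Q v)) := by
    rw [Matrix.sum_mulVec, dotProduct_sum]
    refine sum_congr rfl fun y _ => ?_
    rw [(Y5_mulVec v).resolve_right (not_not.2 h), dotProduct_smul, smul_eq_mul]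
    have : u ⬝ᵥ col A w Q y = Gm A w y ⬝ᵥ cut Q u := sum_congr rfl fun a _ => by
      by_cases ha : a ∈ Q
      · simp only [col, cut, ha, if_true, h.G_sym y a]; ring
      · simp [col, cut, ha]
    rw [this]; ring
  have h1 : ‖u ⬝ᵥ (∑ y ∈ S, Y5 A w Q y (β y)) *ᵥ v‖ ≤ b * ∑ y ∈ S,
      (√(gam w y) * ‖Gm A w y ⬝ᵥ cut Q u‖) * (√(gam w y) * ‖Gm A w y ⬝ᵥ cut Q v‖) := by
    rw [e, mul_sum]
    refine (norm_sum_le _ _).trans (sum_le_sum fun y hy => ?_)
    rw [norm_mul, norm_neg, norm_mul]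
    calc _ ≤ b * gam w y * (‖Gm A w y ⬝ᵥ cut Q u‖ * ‖Gm A w y ⬝ᵥ cut Q v‖) := by
          gcongr; exact hβ y hy
      _ = b * ((√(gam w y) * √(gam w y)) * (‖Gm A w y ⬝ᵥ cut Q u‖ * ‖Gm A w y ⬝ᵥ cut Q v‖)) := by
          rw [Real.mul_self_sqrt (h.diss y)]; ring
      _ = _ := by ring
  have h2 := sum_mul_sq_le_sq_mul_sq S (fun y => √(gam w y) * ‖Gm A w y ⬝ᵥ cut Q u‖)
    fun y => √(gam w y) * ‖Gm A w y ⬝ᵥ cut Q v‖
  simp only [mul_pow, Real.sq_sqrt (h.diss _)] at h2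
  have h3 := ward_cut (Q := Q) h S u
  have h4 := ward_cut (Q := Q) h S v
  have h5 : 0 ≤ ∑ y ∈ S, gam w y * ‖Gm A w y ⬝ᵥ cut Q v‖ ^ 2 :=
    sum_nonneg fun y _ => mul_nonneg (h.diss y) (by positivity)
  have := nsq_nonneg u
  calc _ ≤ (b * _) ^ 2 := by gcongr
    _ = b ^ 2 * _ := mul_pow _ _ _
    _ ≤ b ^ 2 * ((‖cmp (Gm A w) Q‖ * nsq u) * (‖cmp (Gm A w) Q‖ * nsq v)) := by
        gcongr; exact h2.trans (by gcongr)
    _ = _ := by ring

/-- increment of the block monitor -/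
noncomputable def inc5 (A : Matrix ι ι ℂ) (w : ι → ℂ) (Q : Finset ι) (vv : ι → ℕ → ℝ) (y : ι)
    (k : ℕ) : Matrix ι ι ℂ := Y5 A w Q y (tau (Gm A w y y) (w y) (vv y k))

/-- **M5**: `D` = dwell of the active ports on `Q`, `Mq` = norm of the block -/
theorem blk5_locA {B : Type} [Fintype B] [DecidableEq B] {e : B → ι} (he : Function.Injective e)
    (Q' : Finset ι) (X : Matrix ι ι ℂ) {Act U : Finset ι} {N : ℕ} {vv : ι → ℕ → ℝ}
    {τ1 t2 b D Mq s dt Z T t : ℝ} (hN : 0 < N) (hdt : 0 ≤ dt) (hZ : 0 < Z) (hT : 0 < T)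
    (hs : 0 ≤ s) (h : Adm A w) (hb : 0 ≤ b) (ht2 : 0 ≤ t2) (hD0 : 0 ≤ D)
    (hM : ‖cmp (Gm A w) Q‖ ≤ Mq)
    (hD : ∀ y ∈ Act ∩ U, ∑ x ∈ Q, ‖Gm A w x y‖ ^ 2 ≤ D)
    (hτ : ∀ y ∈ Act ∩ U, ∀ k < N, ‖tau (Gm A w y y) (w y) (vv y k)‖ ≤ τ1)
    (hτ2 : ∀ y ∈ Act ∩ U,
      avg N (fun k => ‖tau (Gm A w y y) (w y) (vv y k)‖ ^ 2) ≤ t2 * gam w y)
    (hβ : ∀ y ∈ Act ∩ U, ‖avgV N fun k => tau (Gm A w y y) (w y) (vv y k)‖ ≤ b * gam w y)
    (h1 : Z * (s * (τ1 * D)) ≤ 1) (h2 : s * (b * Mq) ≤ 1 / (4 * T))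
    (h3 : Z * (s ^ 2 * (t2 * D * Mq)) ≤ 1 / (4 * T)) :
    LocA Act N dt U (potM Z T t 0 ((s : ℂ) • blk X e Q'))
      fun ω => potM Z T (t + dt) 0 ((s : ℂ) • blk (accUp U X 0 (inc5 A w Q vv) ω) e Q') := by
  have hM0 : 0 ≤ Mq := (norm_nonneg _).trans hM
  refine M7.blk_locA hN he Q' X hdt hZ hT hs (by positivity) (fun y _ k => Y5_symm)
    (fun y hy k hk => norm_Y5.trans (mul_le_mul (hτ y hy k hk) (hD y hy) (by positivity)
      ((norm_nonneg _).trans (hτ y hy k hk)))) ?_ (fun v => ?_) h1 h2 h3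
  · refine le_trans (le_of_eq ?_) ((drift_Y5 (Q := Q) h _ hb hβ).trans (by gcongr))
    congr 1
    refine sum_congr rfl fun y _ => ?_
    ext x z
    simp only [avgV, inc5, Y5, Matrix.smul_apply, Matrix.sum_apply, smul_eq_mul, real_smul,
      neg_mul, sum_neg_distrib, ← sum_mul]
    ring
  · have h4 : ∀ y ∈ Act ∩ U, avg N (fun k => nsq (inc5 A w Q vv y k *ᵥ v)) ≤
        t2 * D * (gam w y * ‖Gm A w y ⬝ᵥ cut Q v‖ ^ 2) := by
      intro y hy
      have e1 : ∀ k, nsq (inc5 A w Q vv y k *ᵥ v) =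
          ‖Gm A w y ⬝ᵥ cut Q v‖ ^ 2 * (∑ x ∈ Q, ‖Gm A w x y‖ ^ 2) *
            ‖tau (Gm A w y y) (w y) (vv y k)‖ ^ 2 := fun k => by
        rw [inc5, (Y5_mulVec v).resolve_right (not_not.2 h), nsq_smul, nsq_col, norm_mul, norm_neg]
        ring
      simp only [e1]
      rw [avg_mul]
      have := h.diss y
      calc _ ≤ ‖Gm A w y ⬝ᵥ cut Q v‖ ^ 2 * D * (t2 * gam w y) :=
            mul_le_mul (by gcongr; exact hD y hy) (hτ2 y hy)
              (le_trans (avg_const hN 0).ge (avg_mono fun _ _ => by positivity)) (by positivity)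
        _ = _ := by ring
    refine (sum_le_sum h4).trans ?_
    rw [← mul_sum, mul_assoc (t2 * D)]
    have := nsq_nonneg v
    exact mul_le_mul_of_nonneg_left ((ward_cut h _ v).trans (by gcongr)) (by positivity)







end Crest.Agent.N334.AC.M5
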